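import Mathlib

/-!
# R1, block FL (helper154): elementary symmetric sums and Bonferroni with weights in `[0,1]`

(The Bonferroni part is copied from helper102's `R8/Model.lean`, `esymm_le` from `R8/TV.lean`, to keep the imports small.)
-/

set_option autoImplicit false

open Finset

namespace Crest.Agent.R001.FL

lemma pow_add_ge (s a : ℝ) (hs : 0 ≤ s) (ha : 0 ≤ a) (k : ℕ) :
    s ^ (k + 1) + (k + 1) * a * s ^ k ≤ (s + a) ^ (k + 1) := by
  induction k with
  | zero => simp
  | succ k ih =>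
    have h1 : (s + a) * (s ^ (k + 1) + (k + 1) * a * s ^ k) ≤ (s + a) * (s + a) ^ (k + 1) :=
      mul_le_mul_of_nonneg_left ih (by positivity)
    have h2 : 0 ≤ (k + 1) * a * a * s ^ k := by positivity
    have h3 : (s + a) * (s ^ (k + 1) + (k + 1) * a * s ^ k)
        = s ^ (k + 1 + 1) + (k + 1 + 1) * a * s ^ (k + 1) + (k + 1) * a * a * s ^ k := by ring
    calc s ^ (k + 1 + 1) + ((k + 1 : ℕ) + 1) * a * s ^ (k + 1)
        ≤ (s + a) * (s ^ (k + 1) + (k + 1) * a * s ^ k) := by
          rw [h3]; push_cast; linarith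
      _ ≤ (s + a) * (s + a) ^ (k + 1) := h1
      _ = (s + a) ^ (k + 1 + 1) := by ring

/-- elementary symmetric sum -/
noncomputable def es (x : ℕ → ℝ) (j : ℕ) (P : Finset ℕ) : ℝ :=
  ∑ S ∈ P.powersetCard j, ∏ q ∈ S, x q

lemma es_zero (x : ℕ → ℝ) (P : Finset ℕ) : es x 0 P = 1 := by
  simp [es]

lemma es_succ_insert (x : ℕ → ℝ) {a : ℕ} {P : Finset ℕ} (ha : a ∉ P) (j : ℕ) :
    es x (j + 1) (insert a P) = es x (j + 1) P + x a * es x j P := by
  classical
  unfold es
  rw [powersetCard_succ_insert ha, sum_union, sum_image, mul_sum]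
  · congr 1
    refine sum_congr rfl fun S hS => ?_
    have haS : a ∉ S := fun h => ha ((mem_powersetCard.1 hS).1 h)
    rw [prod_insert haS]
  · intro S hS T hT hST
    have haS : a ∉ S := fun h => ha ((mem_powersetCard.1 (by simpa using hS)).1 h)
    have haT : a ∉ T := fun h => ha ((mem_powersetCard.1 (by simpa using hT)).1 h)
    have := congrArg (fun U => U.erase a) hST
    simpa [erase_insert haS, erase_insert haT] using this
  · rw [disjoint_left]
    intro S hS hS'
    obtain ⟨T, _, rfl⟩ := mem_image.1 hS'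
    exact ha ((mem_powersetCard.1 hS).1 (mem_insert_self a T))

/-- truncated alternating sum -/
noncomputable def BB (x : ℕ → ℝ) (r : ℕ) (P : Finset ℕ) : ℝ :=
  ∑ j ∈ range (r + 1), (-1) ^ j * es x j P

lemma BB_succ_insert (x : ℕ → ℝ) {a : ℕ} {P : Finset ℕ} (ha : a ∉ P) (r : ℕ) :
    BB x (r + 1) (insert a P) = BB x (r + 1) P - x a * BB x r P := by
  unfold BB
  rw [sum_range_succ' _ (r + 1), sum_range_succ' (fun j => (-1 : ℝ) ^ j * es x j P) (r + 1)]
  simp only [es_zero, es_succ_insert x ha, pow_zero, mul_sum]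
  rw [add_sub_right_comm, ← sum_sub_distrib]
  congr 1
  refine sum_congr rfl fun j _ => ?_
  ring

lemma prod_le_one' (x : ℕ → ℝ) (P : Finset ℕ) (hx : ∀ q ∈ P, 0 ≤ x q ∧ x q ≤ 1) :
    0 ≤ ∏ q ∈ P, (1 - x q) ∧ ∏ q ∈ P, (1 - x q) ≤ 1 :=
  ⟨prod_nonneg fun q hq => sub_nonneg.2 (hx q hq).2,
   prod_le_one (fun q hq => sub_nonneg.2 (hx q hq).2) fun q hq => by linarith [(hx q hq).1]⟩

/-- Bonferroni with weights in `[0,1]`. -/
lemma bonf (x : ℕ → ℝ) (P : Finset ℕ) (hx : ∀ q ∈ P, 0 ≤ x q ∧ x q ≤ 1) (r : ℕ) :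
    0 ≤ (-1) ^ r * (BB x r P - ∏ q ∈ P, (1 - x q)) ∧
      (-1) ^ r * (BB x r P - ∏ q ∈ P, (1 - x q)) ≤ es x (r + 1) P := by
  induction P using Finset.induction_on generalizing r with
  | empty =>
    have h0 : BB x r ∅ = 1 := by
      unfold BB
      rw [sum_range_succ', sum_eq_zero, es_zero]
      · simp
      · intro j _
        simp [es, powersetCard_eq_empty.2 (show (∅ : Finset ℕ).card < j + 1 by simp)]
    have h1 : es x (r + 1) ∅ = 0 := by
      simp [es, powersetCard_eq_empty.2 (show (∅ : Finset ℕ).card < r + 1 by simp)]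
    simp [h0, h1]
  | insert a P ha ih =>
    have hxP : ∀ q ∈ P, 0 ≤ x q ∧ x q ≤ 1 := fun q hq => hx q (mem_insert_of_mem hq)
    obtain ⟨hxa0, hxa1⟩ := hx a (mem_insert_self _ _)
    obtain ⟨hp0, hp1⟩ := prod_le_one' x P hxP
    cases r with
    | zero =>
      obtain ⟨h1, h2⟩ := ih hxP 0
      have hB : ∀ Q, BB x 0 Q = 1 := fun Q => by simp [BB, es_zero]
      rw [prod_insert ha, es_succ_insert x ha, es_zero, hB]
      rw [hB] at h1 h2
      simp only [pow_zero, one_mul] at h1 h2 ⊢
      constructor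
      · nlinarith [mul_nonneg hxa0 hp0]
      · nlinarith [mul_nonneg hxa0 (sub_nonneg.2 hp1)]
    | succ r =>
      obtain ⟨h1, h2⟩ := ih hxP (r + 1)
      obtain ⟨h3, h4⟩ := ih hxP r
      rw [prod_insert ha, es_succ_insert x ha, BB_succ_insert x ha]
      have key : (-1) ^ (r + 1) * (BB x (r + 1) P - x a * BB x r P
          - (1 - x a) * ∏ q ∈ P, (1 - x q))
          = (-1) ^ (r + 1) * (BB x (r + 1) P - ∏ q ∈ P, (1 - x q))
            + x a * ((-1) ^ r * (BB x r P - ∏ q ∈ P, (1 - x q))) := by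
        rw [pow_succ]; ring
      rw [key]
      constructor
      · have := mul_nonneg hxa0 h3
        linarith
      · have := mul_le_mul_of_nonneg_left h4 hxa0
        linarith

/-- elementary symmetric sums are at most `(∑ a)^k / k!`. -/
lemma es_le (x : ℕ → ℝ) (P : Finset ℕ) (hx : ∀ q ∈ P, 0 ≤ x q) (k : ℕ) :
    es x k P ≤ (∑ q ∈ P, x q) ^ k / (k.factorial : ℝ) := by
  induction P using Finset.induction_on generalizing k with
  | empty =>
    cases k with
    | zero => simp [es]
    | succ k =>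
      unfold es
      rw [powersetCard_eq_empty.2 (by simp)]
      simp
  | insert a P ha ih =>
    cases k with
    | zero => simp [es]
    | succ k =>
      have hx' : ∀ y ∈ P, 0 ≤ x y := fun y hy => hx y (mem_insert_of_mem hy)
      have hax : 0 ≤ x a := hx a (mem_insert_self _ _)
      rw [es_succ_insert x ha, sum_insert ha]
      set s := ∑ y ∈ P, x y with hs
      have hs0 : 0 ≤ s := sum_nonneg hx'
      have h2 := ih hx' (k + 1)
      have h3 := ih hx' k
      have h4 := pow_add_ge s (x a) hs0 hax k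
      have hf : (0 : ℝ) < (k.factorial : ℝ) := by positivity
      have hf' : (((k + 1).factorial : ℕ) : ℝ) = (k + 1) * (k.factorial : ℝ) := by
        rw [Nat.factorial_succ]; push_cast; ring
      calc es x (k + 1) P + x a * es x k P
          ≤ s ^ (k + 1) / ((k + 1).factorial : ℝ) + x a * (s ^ k / (k.factorial : ℝ)) := by
            gcongr
        _ = (s ^ (k + 1) + (k + 1) * x a * s ^ k) / ((k + 1).factorial : ℝ) := by
            rw [hf']; field_simp
        _ ≤ (x a + s) ^ (k + 1) / ((k + 1).factorial : ℝ) := by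
            rw [add_comm (x a) s]
            gcongr

lemma es_nonneg (x : ℕ → ℝ) (P : Finset ℕ) (hx : ∀ q ∈ P, 0 ≤ x q) (k : ℕ) : 0 ≤ es x k P :=
  sum_nonneg fun S hS => prod_nonneg fun q hq => hx q ((mem_powersetCard.1 hS).1 hq)

/-- evaluation of a coefficient function on the subsets of `Q` -/
noncomputable def ev (Q : Finset ℕ) (c : Finset ℕ → ℝ) (x : ℕ → ℝ) : ℝ :=
  ∑ S ∈ Q.powerset, c S * ∏ q ∈ S, x q

lemma es_eq_ev (x : ℕ → ℝ) (P : Finset ℕ) (k : ℕ) :
    es x k P = ev P (fun S => if S.card = k then 1 else 0) x := by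
  unfold es ev
  rw [Finset.powersetCard_eq_filter, sum_filter]
  refine sum_congr rfl fun S _ => ?_
  by_cases h : S.card = k <;> simp [h]

lemma BB_eq_ev (x : ℕ → ℝ) (P : Finset ℕ) (r : ℕ) :
    BB x r P = ev P (fun S => if S.card ≤ r then (-1) ^ S.card else 0) x := by
  unfold BB
  simp_rw [es_eq_ev]
  unfold ev
  simp_rw [mul_sum]
  rw [sum_comm]
  refine sum_congr rfl fun S _ => ?_
  by_cases h : S.card ≤ r
  · rw [sum_eq_single S.card]
    · simp [h]
    · intro j _ hj
      simp [Ne.symm hj]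
    · intro hh
      exact absurd (mem_range.2 (by omega)) hh
  · rw [sum_eq_zero]
    · simp [h]
    · intro j hj
      have : S.card ≠ j := by
        have := mem_range.1 hj
        omega
      simp [this]

end Crest.Agent.R001.FL
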