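import Crest.Agent.R001.FL.Weights
import Crest.Agent.Lib.Mertens

/-!
# R1, block FL (helper154): the fundamental lemma of the sieve (lower and upper bound)
-/

set_option autoImplicit false

open Finset

namespace Crest.Agent.R001.FL

/-- quality of sieve weights at the density `g`. -/
def Gd (Q : Finset ℕ) (cu ct : Finset ℕ → ℝ) (g : ℕ → ℝ) (E : ℝ) : Prop :=
  ev Q cu g ≤ (∏ q ∈ Q, (1 - g q)) * Real.exp E ∧
    ev Q ct g ≤ (∏ q ∈ Q, (1 - g q)) * (E * Real.exp E)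

lemma Gd.mono {Q : Finset ℕ} {cu ct : Finset ℕ → ℝ} {g : ℕ → ℝ} {E E' : ℝ}
    (h : Gd Q cu ct g E) (hE0 : 0 ≤ E) (hE : E ≤ E') (hg : ∀ q ∈ Q, g q ≤ 1) : Gd Q cu ct g E' := by
  have hV : 0 ≤ ∏ q ∈ Q, (1 - g q) := prod_nonneg fun q hq => by linarith [hg q hq]
  refine ⟨h.1.trans ?_, h.2.trans ?_⟩
  · exact mul_le_mul_of_nonneg_left (Real.exp_le_exp.2 hE) hV
  · refine mul_le_mul_of_nonneg_left ?_ hV
    exact mul_le_mul hE (Real.exp_le_exp.2 hE) (Real.exp_pos _).le (hE0.trans hE)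

lemma Gd.mul {Q Q' : Finset ℕ} {D D' : ℝ} {cu ct cu' ct' : Finset ℕ → ℝ} (hd : Disjoint Q Q')
    (hw : IsW Q D cu ct) (hw' : IsW Q' D' cu' ct') {g : ℕ → ℝ} {E E' : ℝ} (_hE : 0 ≤ E)
    (_hE' : 0 ≤ E') (hg : ∀ q ∈ Q, 0 ≤ g q ∧ g q ≤ 1) (hg' : ∀ q ∈ Q', 0 ≤ g q ∧ g q ≤ 1)
    (h : Gd Q cu ct g E) (h' : Gd Q' cu' ct' g E') :
    Gd (Q ∪ Q') (fun S => cu (S ∩ Q) * cu' (S ∩ Q'))
      (fun S => ct (S ∩ Q) * cu' (S ∩ Q') + cu (S ∩ Q) * ct' (S ∩ Q')) g (E + E') := by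
  have hV : 0 ≤ ∏ q ∈ Q, (1 - g q) := prod_nonneg fun q hq => by linarith [(hg q hq).2]
  have hV' : 0 ≤ ∏ q ∈ Q', (1 - g q) := prod_nonneg fun q hq => by linarith [(hg' q hq).2]
  unfold Gd
  rw [ev_add, ev_union hd, ev_union hd, ev_union hd, prod_union hd]
  obtain ⟨h1, h2⟩ := h
  obtain ⟨h3, h4⟩ := h'
  have h5 := hV.trans (hw.upper g hg)
  have h6 := hV'.trans (hw'.upper g hg')
  have h7 := hw.nonneg g hg
  have h8 := hw'.nonneg g hg'
  set V := ∏ q ∈ Q, (1 - g q)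
  set V' := ∏ q ∈ Q', (1 - g q)
  rw [Real.exp_add]
  have e1 := Real.exp_pos E
  have e2 := Real.exp_pos E'
  constructor
  · calc ev Q cu g * ev Q' cu' g ≤ (V * Real.exp E) * (V' * Real.exp E') :=
          mul_le_mul h1 h3 h6 (by positivity)
      _ = V * V' * (Real.exp E * Real.exp E') := by ring
  · calc ev Q ct g * ev Q' cu' g + ev Q cu g * ev Q' ct' g
        ≤ (V * (E * Real.exp E)) * (V' * Real.exp E') + (V * Real.exp E) * (V' * (E' * Real.exp E')) :=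
          add_le_add (mul_le_mul h2 h3 h6 (by positivity)) (mul_le_mul h1 h4 h8 (by positivity))
      _ = V * V' * ((E + E') * (Real.exp E * Real.exp E')) := by ring

lemma one_sub_ge_exp {x : ℝ} (h0 : 0 ≤ x) (h1 : x ≤ 1 / 2) : Real.exp (-(2 * x)) ≤ 1 - x := by
  have h2 : 1 / (1 - x) ≤ 1 + 2 * x := by
    rw [div_le_iff₀ (by linarith)]
    nlinarith
  have h3 : 1 + 2 * x ≤ Real.exp (2 * x) := by
    have := Real.add_one_le_exp (2 * x)
    linarith
  rw [Real.exp_neg]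
  rw [inv_le_comm₀ (Real.exp_pos _) (by linarith)]
  rw [← one_div]
  exact h2.trans h3

lemma gd_block (Q : Finset ℕ) (b : ℕ) (hb : Even b) (g : ℕ → ℝ)
    (hg : ∀ q ∈ Q, 0 ≤ g q ∧ g q ≤ 1 / 2) (σ : ℝ) (hσ : ∑ q ∈ Q, g q ≤ σ) :
    Gd Q (fun S => if S.card ≤ b then (-1) ^ S.card else 0)
      (fun S => if S.card = b + 1 then 1 else 0) g
      (Real.exp (2 * σ) * (σ ^ (b + 1) / ((b + 1).factorial : ℝ))) := by
  have hs0 : 0 ≤ ∑ q ∈ Q, g q := sum_nonneg fun q hq => (hg q hq).1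
  have hσ0 : 0 ≤ σ := hs0.trans hσ
  have hV : Real.exp (-(2 * σ)) ≤ ∏ q ∈ Q, (1 - g q) := by
    calc Real.exp (-(2 * σ)) ≤ Real.exp (-(2 * ∑ q ∈ Q, g q)) := by
          apply Real.exp_le_exp.2; linarith
      _ = ∏ q ∈ Q, Real.exp (-(2 * g q)) := by
          rw [← Real.exp_sum, mul_sum, sum_neg_distrib]
      _ ≤ _ := prod_le_prod (fun q _ => (Real.exp_pos _).le) fun q hq =>
          one_sub_ge_exp (hg q hq).1 (hg q hq).2
  set V := ∏ q ∈ Q, (1 - g q)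
  set ε := Real.exp (2 * σ) * (σ ^ (b + 1) / ((b + 1).factorial : ℝ)) with hε
  have hε0 : 0 ≤ ε := by positivity
  have hes : es g (b + 1) Q ≤ V * ε := by
    have h1 := es_le g Q (fun q hq => (hg q hq).1) (b + 1)
    have h2 : (∑ q ∈ Q, g q) ^ (b + 1) / ((b + 1).factorial : ℝ) ≤
        σ ^ (b + 1) / ((b + 1).factorial : ℝ) := by gcongr
    have h3 : σ ^ (b + 1) / ((b + 1).factorial : ℝ) = Real.exp (-(2 * σ)) * ε := by
      rw [hε, ← mul_assoc, ← Real.exp_add]; simp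
    calc es g (b + 1) Q ≤ σ ^ (b + 1) / ((b + 1).factorial : ℝ) := h1.trans h2
      _ = Real.exp (-(2 * σ)) * ε := h3
      _ ≤ V * ε := mul_le_mul_of_nonneg_right hV hε0
  have hV0 : 0 < V := (Real.exp_pos _).trans_le hV
  have hee : 1 + ε ≤ Real.exp ε := by
    have := Real.add_one_le_exp ε
    linarith
  constructor
  · rw [← BB_eq_ev]
    have := (bonf g Q (fun q hq => ⟨(hg q hq).1, by linarith [(hg q hq).2]⟩) b).2
    rw [hb.neg_one_pow, one_mul] at this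
    have h4 : BB g b Q ≤ V * (1 + ε) := by
      have : BB g b Q ≤ V + V * ε := by linarith
      linarith
    exact h4.trans (mul_le_mul_of_nonneg_left hee hV0.le)
  · rw [← es_eq_ev]
    refine hes.trans (mul_le_mul_of_nonneg_left ?_ hV0.le)
    nlinarith [Real.one_le_exp hε0]

/-! ## tails of the exponential series -/

/-- the tail function. -/
noncomputable def tl (σ : ℝ) (m : ℕ) : ℝ :=
  Real.exp (2 * σ) * ∑' k : ℕ, σ ^ (k + m) / ((k + m).factorial : ℝ)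

lemma tl_summable (σ : ℝ) (m : ℕ) :
    Summable (fun k : ℕ => σ ^ (k + m) / ((k + m).factorial : ℝ)) :=
  (summable_nat_add_iff m).2 (Real.summable_pow_div_factorial σ)

lemma tl_nonneg (σ : ℝ) (hσ : 0 ≤ σ) (m : ℕ) : 0 ≤ tl σ m :=
  mul_nonneg (Real.exp_pos _).le (tsum_nonneg fun k => by positivity)

lemma tl_eq (σ : ℝ) (m : ℕ) :
    tl σ m = Real.exp (2 * σ) * (σ ^ m / (m.factorial : ℝ)) + tl σ (m + 1) := by
  unfold tl
  rw [← mul_add, (tl_summable σ m).tsum_eq_zero_add]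
  congr 2
  · simp
  · refine tsum_congr fun k => ?_
    rw [show k + 1 + m = k + (m + 1) by ring]

lemma tl_tendsto (σ : ℝ) : Filter.Tendsto (tl σ) Filter.atTop (nhds 0) := by
  have h := (tendsto_sum_nat_add (fun k : ℕ => σ ^ k / (k.factorial : ℝ))).const_mul
    (Real.exp (2 * σ))
  rw [mul_zero] at h
  exact h

lemma tl_step (σ : ℝ) (hσ : 0 ≤ σ) (b : ℕ) :
    Real.exp (2 * σ) * (σ ^ (b + 1) / ((b + 1).factorial : ℝ)) + tl σ (b + 2 + 1) ≤ tl σ (b + 1) := by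
  rw [tl_eq σ (b + 1), tl_eq σ (b + 1 + 1)]
  have h1 : 0 ≤ Real.exp (2 * σ) * (σ ^ (b + 1 + 1) / ((b + 1 + 1).factorial : ℝ)) := by positivity
  have h2 : b + 1 + 1 + 1 = b + 2 + 1 := by ring
  rw [h2]
  linarith

/-! ## Mertens bound for one block -/

lemma block_sum_le (y : ℝ) (hy : 1 ≤ y) (P : Finset ℕ)
    (hP : ∀ p ∈ P, p.Prime ∧ √y < (p : ℝ) ∧ (p : ℝ) ≤ y) : ∑ p ∈ P, (1 : ℝ) / p ≤ 12 := by
  by_cases hy4 : y < 4
  · have hsub : P ⊆ {2, 3} := by
      intro p hp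
      obtain ⟨h1, _, h3⟩ := hP p hp
      have h4 : p < 4 := by
        have : (p : ℝ) < 4 := by linarith
        exact_mod_cast this
      have h5 := h1.two_le
      simp only [mem_insert, mem_singleton]
      omega
    calc ∑ p ∈ P, (1 : ℝ) / p ≤ ∑ p ∈ ({2, 3} : Finset ℕ), (1 : ℝ) / p :=
          sum_le_sum_of_subset_of_nonneg hsub fun _ _ _ => by positivity
      _ ≤ 12 := by norm_num
  · push Not at hy4
    have hs2 : 2 ≤ √y := by
      rw [Real.le_sqrt (by norm_num) (by linarith)]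
      linarith
    set m := ⌊√y⌋₊ with hm
    set n := ⌊y⌋₊ with hn
    have hm2 : 2 ≤ m := Nat.le_floor (by exact_mod_cast hs2)
    have hmn : m ≤ n := Nat.floor_le_floor (by
      rw [Real.sqrt_le_left (by linarith)]
      nlinarith)
    have hsub : P ⊆ Crest.Agent.Lib.Mertens.primesIoc m n := by
      intro p hp
      obtain ⟨h1, h2, h3⟩ := hP p hp
      rw [Crest.Agent.Lib.Mertens.mem_primesIoc]
      exact ⟨⟨(Nat.floor_lt (by positivity)).2 h2, Nat.le_floor h3⟩, h1⟩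
    have h1 := (abs_le.1 (Crest.Agent.Lib.Mertens.mertens_two_nat m n hm2 hmn)).2
    have hm0 : (2 : ℝ) ≤ m := by exact_mod_cast hm2
    have hlogm : 0.69 < Real.log m := by
      have := Real.log_two_gt_d9
      have h2 := Real.log_le_log (by norm_num) hm0
      linarith
    have h7 : 7 / Real.log m ≤ 10.15 := by
      rw [div_le_iff₀ (by linarith)]
      linarith
    have hy1 : √y < m + 1 := Nat.lt_floor_add_one _
    have hn4 : (n : ℝ) ≤ (m : ℝ) ^ 4 := by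
      have h2 : (n : ℝ) ≤ y := Nat.floor_le (by linarith)
      have h3 : y = √y ^ 2 := (Real.sq_sqrt (by linarith)).symm
      have h4 : √y ≤ (m : ℝ) ^ 2 := by nlinarith
      have h5 : √y ^ 2 ≤ ((m : ℝ) ^ 2) ^ 2 := pow_le_pow_left₀ (by positivity) h4 2
      calc (n : ℝ) ≤ y := h2
        _ = √y ^ 2 := h3
        _ ≤ ((m : ℝ) ^ 2) ^ 2 := h5
        _ = (m : ℝ) ^ 4 := by ring
    have hn0 : (0 : ℝ) < n := by
      have : (2 : ℝ) ≤ n := by exact_mod_cast hm2.trans hmn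
      linarith
    have hlogn : Real.log n ≤ 4 * Real.log m := by
      have := Real.log_le_log hn0 hn4
      rwa [Real.log_pow] at this
    have hlogn0 : 0 < Real.log n := Real.log_pos (by
      have : (2 : ℝ) ≤ n := by exact_mod_cast hm2.trans hmn
      linarith)
    have hll : Real.log (Real.log n) ≤ Real.log 4 + Real.log (Real.log m) := by
      rw [← Real.log_mul (by norm_num) (by linarith)]
      exact Real.log_le_log hlogn0 hlogn
    have hl4 : Real.log 4 ≤ 1.4 := by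
      have h2 : (4 : ℝ) = 2 ^ 2 := by norm_num
      rw [h2, Real.log_pow]
      have := Real.log_two_lt_d9
      push_cast
      linarith
    calc ∑ p ∈ P, (1 : ℝ) / p ≤ Crest.Agent.Lib.Mertens.S m n :=
          sum_le_sum_of_subset_of_nonneg hsub fun _ _ _ => by positivity
      _ ≤ 12 := by linarith

/-! ## the weights -/

theorem exists_weights_rec (C0 : ℝ) (hC0 : 0 ≤ C0) (R : ℕ) : ∀ (b : ℕ), Even b → ∀ y : ℝ, 1 ≤ y →
    y < 2 ^ (2 ^ R) → ∀ P : Finset ℕ, (∀ p ∈ P, p.Prime ∧ (p : ℝ) ≤ y) →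
    ∃ cu ct : Finset ℕ → ℝ, IsW P (y ^ (2 * b + 6)) cu ct ∧
      ∀ g : ℕ → ℝ, (∀ p ∈ P, 0 ≤ g p ∧ g p ≤ 1 / 2 ∧ g p ≤ C0 / p) →
        Gd P cu ct g (tl (12 * C0) (b + 1)) := by
  induction R with
  | zero =>
    intro b _ y hy1 hy P hP
    have hP0 : P = ∅ := by
      rw [eq_empty_iff_forall_notMem]
      intro p hp
      obtain ⟨h1, h2⟩ := hP p hp
      have h3 : (2 : ℝ) ≤ p := by exact_mod_cast h1.two_le
      norm_num at hy
      linarith
    subst hP0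
    refine ⟨_, _, isW_empty.mono (one_le_pow₀ hy1), fun g _ => ?_⟩
    have h0 := tl_nonneg (12 * C0) (by positivity) (b + 1)
    constructor
    · simp only [ev, powerset_empty, sum_singleton, prod_empty, mul_one, if_true, one_mul]
      exact Real.one_le_exp h0
    · simp only [ev, powerset_empty, sum_singleton, prod_empty, mul_one, one_mul]
      positivity
  | succ R ih =>
    intro b hb y hy1 hy P hP
    have hsy1 : 1 ≤ √y := Real.one_le_sqrt.2 hy1
    have hsq : √y ^ 2 = y := Real.sq_sqrt (by linarith)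
    have hsy : √y < 2 ^ (2 ^ R) := by
      rw [Real.sqrt_lt' (by positivity), ← pow_mul, ← pow_succ]
      exact hy
    set P0 := P.filter (fun p : ℕ => √y < (p : ℝ)) with hP0
    set P1 := P.filter (fun p : ℕ => ¬ √y < (p : ℝ)) with hP1
    have hd : Disjoint P0 P1 := disjoint_filter_filter_not _ _ _
    have hun : P0 ∪ P1 = P := filter_union_filter_not_eq _ _
    have hPP0 : ∀ p ∈ P0, p.Prime ∧ √y < (p : ℝ) ∧ (p : ℝ) ≤ y := by
      intro p hp
      obtain ⟨h1, h2⟩ := mem_filter.1 hp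
      exact ⟨(hP p h1).1, h2, (hP p h1).2⟩
    have hPP1 : ∀ p ∈ P1, p.Prime ∧ (p : ℝ) ≤ √y := by
      intro p hp
      obtain ⟨h1, h2⟩ := mem_filter.1 hp
      exact ⟨(hP p h1).1, not_lt.1 h2⟩
    obtain ⟨cu', ct', hw', hg'⟩ := ih (b + 2) (hb.add even_two) (√y) hsy1 hsy P1 hPP1
    have hw := isW_block P0 y hy1 (fun q hq => (hPP0 q hq).2.2) b hb
    have hmul := hw.mul hd hw'
    rw [hun] at hmul
    refine ⟨_, _, hmul.mono ?_, fun g hg => ?_⟩
    · have h1 : √y ^ (2 * (b + 2) + 6) = y ^ (b + 5) := by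
        rw [show 2 * (b + 2) + 6 = 2 * (b + 5) by ring, pow_mul, hsq]
      rw [h1, ← pow_add]
      exact pow_le_pow_right₀ hy1 (by omega)
    · have hgP0 : ∀ q ∈ P0, 0 ≤ g q ∧ g q ≤ 1 / 2 := fun q hq =>
        ⟨(hg q (mem_filter.1 hq).1).1, (hg q (mem_filter.1 hq).1).2.1⟩
      have hσ : ∑ q ∈ P0, g q ≤ 12 * C0 := by
        calc ∑ q ∈ P0, g q ≤ ∑ q ∈ P0, C0 * (1 / (q : ℝ)) := by
              refine sum_le_sum fun q hq => ?_
              have := (hg q (mem_filter.1 hq).1).2.2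
              rwa [mul_one_div]
          _ = C0 * ∑ q ∈ P0, 1 / (q : ℝ) := by rw [mul_sum]
          _ ≤ C0 * 12 := mul_le_mul_of_nonneg_left (block_sum_le y hy1 P0 hPP0) hC0
          _ = 12 * C0 := by ring
      have hG0 := gd_block P0 b hb g hgP0 (12 * C0) hσ
      have hG1 := hg' g fun p hp => hg p (mem_filter.1 hp).1
      have hG := Gd.mul hd hw hw' (by positivity) (tl_nonneg _ (by positivity) _)
        (fun q hq => ⟨(hgP0 q hq).1, by linarith [(hgP0 q hq).2]⟩)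
        (fun q hq => ⟨(hg q (mem_filter.1 hq).1).1, by linarith [(hg q (mem_filter.1 hq).1).2.1]⟩)
        hG0 hG1
      rw [hun] at hG
      refine hG.mono ?_ (tl_step _ (by positivity) b) fun q hq => by linarith [(hg q hq).2.1]
      exact add_nonneg (by positivity) (tl_nonneg _ (by positivity) _)

/-- **Existence of fundamental lemma weights** (dimension `≤ C0`, all primes `≤ y`, level `y ^ s`). -/
theorem exists_weights (C0 : ℝ) (hC0 : 0 ≤ C0) (η : ℝ) (hη : 0 < η) : ∃ s : ℕ, ∀ y : ℝ, 1 ≤ y →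
    ∀ P : Finset ℕ, (∀ p ∈ P, p.Prime ∧ (p : ℝ) ≤ y) →
    ∃ cu ct : Finset ℕ → ℝ, IsW P (y ^ s) cu ct ∧
      ∀ g : ℕ → ℝ, (∀ p ∈ P, 0 ≤ g p ∧ g p ≤ 1 / 2 ∧ g p ≤ C0 / p) →
        ev P cu g ≤ (1 + η) * ∏ p ∈ P, (1 - g p) ∧ ev P ct g ≤ η * ∏ p ∈ P, (1 - g p) := by
  have h1 : Filter.Tendsto (fun m => Real.exp (tl (12 * C0) m)) Filter.atTop (nhds 1) := by
    have := (Real.continuous_exp.tendsto 0).comp (tl_tendsto (12 * C0))
    rw [Real.exp_zero] at this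
    exact this
  have h2 : Filter.Tendsto (fun m => tl (12 * C0) m * Real.exp (tl (12 * C0) m)) Filter.atTop
      (nhds 0) := by
    simpa using (tl_tendsto (12 * C0)).mul h1
  have h3 := h1.eventually (gt_mem_nhds (show (1 : ℝ) < 1 + η by linarith))
  have h4 := h2.eventually (gt_mem_nhds hη)
  obtain ⟨N, hN⟩ := Filter.eventually_atTop.1 (h3.and h4)
  refine ⟨2 * (2 * N) + 6, fun y hy P hP => ?_⟩
  obtain ⟨R, hR⟩ : ∃ R : ℕ, y < 2 ^ (2 ^ R) := by
    obtain ⟨n, hn⟩ := pow_unbounded_of_one_lt y (show (1 : ℝ) < 2 by norm_num)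
    refine ⟨n, hn.trans_le (pow_le_pow_right₀ (by norm_num) ?_)⟩
    exact (Nat.lt_two_pow_self).le
  obtain ⟨cu, ct, hw, hg⟩ := exists_weights_rec C0 hC0 R (2 * N) (even_two_mul N) y hy hR P hP
  refine ⟨cu, ct, hw, fun g hgg => ?_⟩
  obtain ⟨h5, h6⟩ := hN (2 * N + 1) (by omega)
  obtain ⟨h7, h8⟩ := hg g hgg
  have hV : 0 ≤ ∏ q ∈ P, (1 - g q) := prod_nonneg fun q hq => by linarith [(hgg q hq).2.1]
  constructor
  · rw [mul_comm]
    exact h7.trans (mul_le_mul_of_nonneg_left h5.le hV)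
  · rw [mul_comm]
    exact h8.trans (mul_le_mul_of_nonneg_left h6.le hV)

end Crest.Agent.R001.FL
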