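import Crest.Agent.R001.FL.Sieve

/-!
# R1, block FL (helper154): the fundamental lemma in an arithmetic progression

Also a version with weights of dimension `≤ 3` (several classes per prime).
-/

set_option autoImplicit false

open Finset

namespace Crest.Agent.R001.FL

lemma crt_two (q m : ℕ) (h : Nat.Coprime q m) (c d : ℤ) :
    ∃ e : ℤ, ∀ n : ℤ, (n ≡ c [ZMOD (q : ℤ)] ∧ n ≡ d [ZMOD (m : ℤ)]) ↔ n ≡ e [ZMOD ((q * m : ℕ) : ℤ)] := by
  obtain ⟨u, v, huv⟩ := Nat.isCoprime_iff_coprime.2 h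
  refine ⟨c + u * q * (d - c), fun n => ?_⟩
  have hcop : IsCoprime (q : ℤ) (m : ℤ) := ⟨u, v, huv⟩
  have h1 : c + u * q * (d - c) ≡ c [ZMOD (q : ℤ)] := by
    rw [Int.modEq_iff_dvd]
    exact ⟨-(u * (d - c)), by ring⟩
  have h2 : c + u * q * (d - c) ≡ d [ZMOD (m : ℤ)] := by
    rw [Int.modEq_iff_dvd]
    refine ⟨v * (d - c), ?_⟩
    linear_combination (-(d - c)) * huv
  constructor
  · rintro ⟨h3, h4⟩
    rw [Int.modEq_iff_dvd, Nat.cast_mul]
    exact hcop.mul_dvd (h3.trans h1.symm).dvd (h4.trans h2.symm).dvd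
  · intro h3
    rw [Nat.cast_mul] at h3
    exact ⟨(Int.ModEq.of_mul_right _ h3).trans h1, (Int.ModEq.of_mul_left _ h3).trans h2⟩

open Classical in
/-- **(FL3) Fundamental lemma for an arithmetic progression mod `q` with arbitrary residue classes
mod primes not dividing `q`.** -/
theorem prog_classes (η : ℝ) (hη : 0 < η) : ∃ s : ℕ, ∀ y : ℝ, 2 ≤ y →
    ∀ P : Finset ℕ, (∀ p ∈ P, p.Prime ∧ (p : ℝ) ≤ y) → ∀ (q : ℕ), 0 < q → (∀ p ∈ P, ¬ p ∣ q) →
    ∀ (A : ℤ) (H : ℕ), y ^ s ≤ (H : ℝ) / q →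
    ∀ (c : ℤ) (a : ℕ → ℤ),
      |(((Ioc A (A + H)).filter (fun n => n ≡ c [ZMOD (q : ℤ)] ∧
          ∀ p ∈ P, ¬ n ≡ a p [ZMOD (p : ℤ)])).card : ℝ) -
        H / q * ∏ p ∈ P, (1 - 1 / (p : ℝ))| ≤ η * (H / q * ∏ p ∈ P, (1 - 1 / (p : ℝ))) := by
  obtain ⟨s, hs⟩ := fundamental_lemma 1 zero_le_one (η / 2) (by positivity)
  obtain ⟨t, ht⟩ := pow_unbounded_of_one_lt (2 / η) (show (1 : ℝ) < 2 by norm_num)
  refine ⟨s + 1 + t, fun y hy P hP q hq hPq A H hH c a => ?_⟩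
  have hy1 : 1 ≤ y := by linarith
  have hq0 : (0 : ℝ) < q := by exact_mod_cast hq
  have hg : ∀ p ∈ P, 0 ≤ 1 / (p : ℝ) ∧ 1 / (p : ℝ) ≤ 1 / 2 ∧ 1 / (p : ℝ) ≤ 1 / p := by
    intro p hp
    have : (2 : ℝ) ≤ p := by exact_mod_cast (hP p hp).1.two_le
    exact ⟨by positivity, one_div_le_one_div_of_le (by norm_num) this, le_rfl⟩
  have h1 := hs y hy1 P hP (fun p => 1 / (p : ℝ)) hg
    ((Ioc A (A + H)).filter (fun n => n ≡ c [ZMOD (q : ℤ)])) (fun _ => 1)
    (fun n p => n ≡ a p [ZMOD (p : ℤ)]) (H / q) (fun _ => 1) (fun _ _ => zero_le_one)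
    (by positivity) ?_
  · simp only [sum_const, nsmul_eq_mul, mul_one, filter_filter] at h1
    refine le_trans (le_of_eq (by congr!)) (h1.trans ?_)
    have h2 := card_powerset_prod_le P (fun p hp => (hP p hp).1) (y ^ s) (by positivity)
    have h3 := prod_ge_inv y hy1 P hP
    set V := ∏ p ∈ P, (1 - 1 / (p : ℝ))
    set X := (H : ℝ) / q
    have hX : 0 ≤ X := by positivity
    have h4 : y ^ s ≤ η / 2 * (X * V) := by
      have h5 : y ^ (s + t) ≤ X * V := by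
        calc y ^ (s + t) = y ^ (s + 1 + t) * (1 / y) := by
              rw [show s + 1 + t = s + t + 1 by ring, pow_succ]
              field_simp
          _ ≤ X * V := mul_le_mul hH h3 (by positivity) hX
      have h6 : (2 : ℝ) ^ t ≤ y ^ t := pow_le_pow_left₀ (by norm_num) hy t
      have h7 : 1 ≤ η / 2 * y ^ t := by
        have : 2 / η ≤ y ^ t := ht.le.trans h6
        rw [div_le_iff₀ hη] at this
        linarith
      calc y ^ s = y ^ s * 1 := by ring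
        _ ≤ y ^ s * (η / 2 * y ^ t) := mul_le_mul_of_nonneg_left h7 (by positivity)
        _ = η / 2 * y ^ (s + t) := by rw [pow_add]; ring
        _ ≤ η / 2 * (X * V) := mul_le_mul_of_nonneg_left h5 (by positivity)
    linarith
  · intro S hSP _
    simp only [sum_const, nsmul_eq_mul, mul_one, filter_filter]
    obtain ⟨d, hd⟩ := exists_crt S (fun p hp => (hP p (hSP hp)).1) a
    have hpos : 0 < ∏ q ∈ S, q := Finset.prod_pos fun p hp => (hP p (hSP hp)).1.pos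
    have hcop : Nat.Coprime q (∏ q ∈ S, q) := Nat.Coprime.prod_right fun p hp =>
      ((Nat.Prime.coprime_iff_not_dvd (hP p (hSP hp)).1).2 (hPq p (hSP hp))).symm
    obtain ⟨e, he⟩ := crt_two q _ hcop c d
    have h2 := card_modEq A H (q * ∏ q ∈ S, q) (Nat.mul_pos hq hpos) e
    have h5 : ∀ (inst : DecidablePred fun n : ℤ => n ≡ c [ZMOD (q : ℤ)] ∧ ∀ p ∈ S, n ≡ a p [ZMOD (p : ℤ)]),
        (@Finset.filter ℤ _ inst (Ioc A (A + H))) =
          (Ioc A (A + H)).filter (fun n => n ≡ e [ZMOD ((q * ∏ q ∈ S, q : ℕ) : ℤ)]) := by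
      intro inst
      ext n
      simp only [mem_filter]
      rw [hd n, he n]
    rw [h5]
    have h4 : (H : ℝ) / q * ∏ p ∈ S, 1 / (p : ℝ) = H / ((q * ∏ q ∈ S, q : ℕ) : ℝ) := by
      rw [Nat.cast_mul, Nat.cast_prod, prod_div_distrib, prod_const_one, mul_one_div, div_div]
    rw [h4]
    exact h2

end Crest.Agent.R001.FL
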