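import Crest.Agent.R001.FL.Main

/-!
# R1, block FL (helper154): the fundamental lemma (general form) and the interval form
-/

set_option autoImplicit false

open Finset

namespace Crest.Agent.R001.FL

section General

open Classical in
/-- **(FL1) Fundamental lemma of the sieve**, general form. `hit n p` = "the prime `p` hits the element `n`".
If `∑_{n : all p ∈ S hit n} a n = X ∏_{p ∈ S} g p + O(R S)` for all `S ⊆ P` with `∏ S ≤ y ^ s`, then the
sifted sum is `(1 ± η) X ∏ (1 - g p) + O(∑_S R S)`. -/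
theorem fundamental_lemma (C0 : ℝ) (hC0 : 0 ≤ C0) (η : ℝ) (hη : 0 < η) : ∃ s : ℕ, ∀ y : ℝ, 1 ≤ y →
    ∀ P : Finset ℕ, (∀ p ∈ P, p.Prime ∧ (p : ℝ) ≤ y) →
    ∀ g : ℕ → ℝ, (∀ p ∈ P, 0 ≤ g p ∧ g p ≤ 1 / 2 ∧ g p ≤ C0 / p) →
    ∀ {α : Type*} (T : Finset α) (a : α → ℝ) (hit : α → ℕ → Prop) (X : ℝ) (R : Finset ℕ → ℝ),
      (∀ n ∈ T, 0 ≤ a n) → 0 ≤ X →
      (∀ S ⊆ P, ((∏ q ∈ S, q : ℕ) : ℝ) ≤ y ^ s →
        |∑ n ∈ T.filter (fun n => ∀ p ∈ S, hit n p), a n - X * ∏ p ∈ S, g p| ≤ R S) →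
      |∑ n ∈ T.filter (fun n => ∀ p ∈ P, ¬ hit n p), a n - X * ∏ p ∈ P, (1 - g p)| ≤
        η * (X * ∏ p ∈ P, (1 - g p)) +
          ∑ S ∈ P.powerset.filter (fun S => ((∏ q ∈ S, q : ℕ) : ℝ) ≤ y ^ s), R S := by
  obtain ⟨s, hs⟩ := exists_weights C0 hC0 η hη
  refine ⟨s, fun y hy P hP g hg α T a hit X R ha hX hR => ?_⟩
  obtain ⟨cu, ct, hw, hq⟩ := hs y hy P hP
  obtain ⟨hq1, hq2⟩ := hq g hg
  set V := ∏ p ∈ P, (1 - g p) with hV
  have hg01 : ∀ q ∈ P, 0 ≤ g q ∧ g q ≤ 1 := fun q hq => ⟨(hg q hq).1, by linarith [(hg q hq).2.1]⟩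
  -- indicator
  let x : α → ℕ → ℝ := fun n p => if hit n p then 1 else 0
  have hx : ∀ n, ∀ q ∈ P, 0 ≤ x n q ∧ x n q ≤ 1 := by
    intro n q _
    simp only [x]
    split_ifs <;> norm_num
  have hprod : ∀ n, ∏ p ∈ P, (1 - x n p) = if (∀ p ∈ P, ¬ hit n p) then 1 else 0 := by
    intro n
    split_ifs with h
    · refine prod_eq_one fun p hp => ?_
      simp [x, h p hp]
    · push Not at h
      obtain ⟨p, hp, h⟩ := h
      refine prod_eq_zero hp ?_
      simp [x, h]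
  have hS : ∀ S : Finset ℕ, ∀ n, ∏ q ∈ S, x n q = if (∀ p ∈ S, hit n p) then 1 else 0 := by
    intro S n
    split_ifs with h
    · refine prod_eq_one fun p hp => ?_
      simp [x, h p hp]
    · push Not at h
      obtain ⟨p, hp, h⟩ := h
      refine prod_eq_zero hp ?_
      simp [x, h]
  have hsift : ∑ n ∈ T.filter (fun n => ∀ p ∈ P, ¬ hit n p), a n =
      ∑ n ∈ T, a n * ∏ p ∈ P, (1 - x n p) := by
    rw [sum_filter]
    refine sum_congr rfl fun n _ => ?_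
    rw [hprod]
    split_ifs <;> simp
  have hev : ∀ c : Finset ℕ → ℝ, ∑ n ∈ T, a n * ev P c (x n) =
      ∑ S ∈ P.powerset, c S * ∑ n ∈ T.filter (fun n => ∀ p ∈ S, hit n p), a n := by
    intro c
    have h0 : ∀ n ∈ T, a n * ev P c (x n) = ∑ S ∈ P.powerset, a n * (c S * ∏ q ∈ S, x n q) :=
      fun n _ => by unfold ev; rw [mul_sum]
    rw [sum_congr rfl h0, sum_comm]
    refine sum_congr rfl fun S _ => ?_
    rw [sum_filter, mul_sum]
    refine sum_congr rfl fun n _ => ?_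
    rw [hS]
    split_ifs <;> ring
  set Er := ∑ S ∈ P.powerset.filter (fun S => ((∏ q ∈ S, q : ℕ) : ℝ) ≤ y ^ s), R S with hEr
  have hR0 : ∀ S ⊆ P, ((∏ q ∈ S, q : ℕ) : ℝ) ≤ y ^ s → 0 ≤ R S := fun S h1 h2 =>
    (abs_nonneg _).trans (hR S h1 h2)
  -- comparison with the main term for any coefficient function
  have key : ∀ c : Finset ℕ → ℝ, (∀ S, |c S| ≤ 1) →
      (∀ S, S ⊆ P → c S ≠ 0 → ((∏ q ∈ S, q : ℕ) : ℝ) ≤ y ^ s) →
      |∑ n ∈ T, a n * ev P c (x n) - X * ev P c g| ≤ Er := by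
    intro c hc1 hc2
    rw [hev]
    have h1 : X * ev P c g = ∑ S ∈ P.powerset, c S * (X * ∏ q ∈ S, g q) := by
      unfold ev
      rw [mul_sum]
      exact sum_congr rfl fun S _ => by ring
    rw [h1, ← sum_sub_distrib]
    refine (abs_sum_le_sum_abs _ _).trans ?_
    rw [hEr, sum_filter]
    refine sum_le_sum fun S hSP => ?_
    rw [mem_powerset] at hSP
    rw [← mul_sub, abs_mul]
    by_cases h2 : ((∏ q ∈ S, q : ℕ) : ℝ) ≤ y ^ s
    · rw [if_pos h2]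
      calc |c S| * _ ≤ 1 * R S := mul_le_mul (hc1 S) (hR S hSP h2) (abs_nonneg _) zero_le_one
        _ = R S := one_mul _
    · rw [if_neg h2]
      have h3 : c S = 0 := by
        by_contra hcon
        exact h2 (hc2 S hSP hcon)
      rw [h3]
      simp
  have hcu := key cu (fun S => by linarith [hw.abs_le S, abs_nonneg (ct S)])
    (fun S h1 h2 => hw.lvl S h1 (Or.inl h2))
  have hcl := key (fun S => cu S - ct S)
    (fun S => (abs_sub _ _).trans (hw.abs_le S))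
    (fun S h1 h2 => hw.lvl S h1 (by
      by_contra hcon
      push Not at hcon
      exact h2 (by simp [hcon.1, hcon.2])))
  have hevsub : ∀ z : ℕ → ℝ, ev P (fun S => cu S - ct S) z = ev P cu z - ev P ct z := by
    intro z
    unfold ev
    rw [← sum_sub_distrib]
    exact sum_congr rfl fun S _ => by ring
  -- upper bound
  have hup : ∑ n ∈ T, a n * ∏ p ∈ P, (1 - x n p) ≤ ∑ n ∈ T, a n * ev P cu (x n) :=
    sum_le_sum fun n hn => mul_le_mul_of_nonneg_left (hw.upper _ (hx n)) (ha n hn)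
  have hlo : ∑ n ∈ T, a n * ev P (fun S => cu S - ct S) (x n) ≤ ∑ n ∈ T, a n * ∏ p ∈ P, (1 - x n p) :=
    sum_le_sum fun n hn => mul_le_mul_of_nonneg_left (by
      rw [hevsub]; exact hw.lower _ (hx n)) (ha n hn)
  rw [hsift]
  have e1 := (abs_le.1 hcu).2
  have e2 := (abs_le.1 hcl).1
  have e3 : X * ev P cu g ≤ X * ((1 + η) * V) := mul_le_mul_of_nonneg_left hq1 hX
  have e4 : X * ((1 - η) * V) ≤ X * ev P (fun S => cu S - ct S) g := by
    refine mul_le_mul_of_nonneg_left ?_ hX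
    rw [hevsub]
    have := hw.upper g hg01
    linarith
  rw [abs_le]
  constructor
  · nlinarith
  · nlinarith

end General

/-! ## intervals -/

lemma exists_crt (S : Finset ℕ) (hS : ∀ p ∈ S, p.Prime) (a : ℕ → ℤ) :
    ∃ c : ℤ, ∀ n : ℤ, (∀ p ∈ S, n ≡ a p [ZMOD p]) ↔ n ≡ c [ZMOD ((∏ q ∈ S, q : ℕ) : ℤ)] := by
  classical
  have hco : ∀ S : Finset ℕ, (∀ p ∈ S, p.Prime) → ∀ n c : ℤ,
      (∀ p ∈ S, n ≡ c [ZMOD p]) → n ≡ c [ZMOD ((∏ q ∈ S, q : ℕ) : ℤ)] := by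
    intro S hS n c h
    rw [Int.modEq_iff_dvd]
    have h1 : (∏ q ∈ S, q : ℕ) ∣ (c - n).natAbs := by
      refine Finset.prod_primes_dvd _ (fun p hp => (hS p hp).prime) fun p hp => ?_
      have := (h p hp).dvd
      exact Int.natCast_dvd.1 this
    exact Int.natCast_dvd.2 h1
  have hex : ∃ c : ℤ, ∀ p ∈ S, c ≡ a p [ZMOD p] := by
    induction S using Finset.induction_on with
    | empty => exact ⟨0, by simp⟩
    | insert p S hp ih =>
      obtain ⟨c, hc⟩ := ih fun q hq => hS q (mem_insert_of_mem hq)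
      have hcop : IsCoprime ((∏ q ∈ S, q : ℕ) : ℤ) (p : ℤ) := by
        rw [Nat.isCoprime_iff_coprime]
        refine Nat.Coprime.prod_left fun q hq => ?_
        rw [Nat.coprime_primes (hS q (mem_insert_of_mem hq)) (hS p (mem_insert_self _ _))]
        rintro rfl
        exact hp hq
      obtain ⟨u, v, huv⟩ := hcop
      set m : ℤ := ((∏ q ∈ S, q : ℕ) : ℤ) with hm
      refine ⟨c + m * (u * (a p - c)), fun q hq => ?_⟩
      rcases mem_insert.1 hq with rfl | hq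
      · rw [Int.modEq_iff_dvd]
        refine ⟨v * (a q - c), ?_⟩
        linear_combination (-(a q - c)) * huv
      · have h1 : (q : ℤ) ∣ m := by
          rw [hm]
          exact_mod_cast Finset.dvd_prod_of_mem (fun q => q) hq
        have h2 : c + m * (u * (a p - c)) ≡ c [ZMOD q] := by
          rw [Int.modEq_iff_dvd]
          refine Dvd.dvd.trans h1 ⟨-(u * (a p - c)), by ring⟩
        exact h2.trans (hc q hq)
  obtain ⟨c, hc⟩ := hex
  refine ⟨c, fun n => ⟨fun h => ?_, fun h p hp => ?_⟩⟩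
  · exact hco S hS n c fun p hp => (h p hp).trans (hc p hp).symm
  · have h1 : (p : ℤ) ∣ ((∏ q ∈ S, q : ℕ) : ℤ) := by
      exact_mod_cast Finset.dvd_prod_of_mem (fun q => q) hp
    exact (Int.ModEq.of_dvd h1 h).trans (hc p hp)

lemma card_modEq (A : ℤ) (H : ℕ) (m : ℕ) (hm : 0 < m) (c : ℤ) :
    |(((Ioc A (A + H)).filter (fun n => n ≡ c [ZMOD (m : ℤ)])).card : ℝ) - H / m| ≤ 1 := by
  have hm' : (0 : ℤ) < m := by exact_mod_cast hm
  have h1 := Int.Ioc_filter_modEq_card A (A + H) hm' c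
  have hmq : (0 : ℚ) < (m : ℤ) := by exact_mod_cast hm
  have hle : (((A : ℤ) : ℚ) - (c : ℤ)) / ((m : ℤ) : ℚ) ≤ (((A + (H : ℤ) : ℤ) : ℚ) - (c : ℤ)) / ((m : ℤ) : ℚ) := by
    apply div_le_div_of_nonneg_right _ hmq.le
    push_cast
    linarith [(Nat.cast_nonneg H : (0 : ℚ) ≤ H)]
  have h2 : (⌊(((A : ℤ) : ℚ) - (c : ℤ)) / ((m : ℤ) : ℚ)⌋ : ℤ) ≤
      ⌊(((A + (H : ℤ) : ℤ) : ℚ) - (c : ℤ)) / ((m : ℤ) : ℚ)⌋ := Int.floor_le_floor hle
  rw [max_eq_left (by linarith)] at h1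
  set u := (((A + (H : ℤ) : ℤ) : ℚ) - (c : ℤ)) / ((m : ℤ) : ℚ) with hu
  set v := (((A : ℤ) : ℚ) - (c : ℤ)) / ((m : ℤ) : ℚ) with hv
  have h3 : ((((Ioc A (A + H)).filter (fun n => n ≡ c [ZMOD (m : ℤ)])).card : ℤ) : ℚ) =
      ((⌊u⌋ : ℤ) : ℚ) - ((⌊v⌋ : ℤ) : ℚ) := by
    rw [h1]; push_cast; rfl
  have h4 : u - v = (H : ℚ) / m := by
    rw [hu, hv, ← sub_div]
    congr 1
    push_cast
    ring
  have h5 := Int.floor_le u
  have h6 := Int.lt_floor_add_one u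
  have h7 := Int.floor_le v
  have h8 := Int.lt_floor_add_one v
  have h9 : |((((Ioc A (A + H)).filter (fun n => n ≡ c [ZMOD (m : ℤ)])).card : ℤ) : ℚ) - (H : ℚ) / m| ≤ 1 := by
    rw [h3, ← h4, abs_le]
    constructor <;> linarith
  have h10 := (Rat.cast_le (K := ℝ)).2 h9
  push_cast at h10
  simpa using h10

lemma card_powerset_prod_le (P : Finset ℕ) (hP : ∀ p ∈ P, p.Prime) (D : ℝ) (hD : 0 ≤ D) :
    (((P.powerset.filter (fun S => ((∏ q ∈ S, q : ℕ) : ℝ) ≤ D)).card : ℕ) : ℝ) ≤ D := by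
  have h1 : (P.powerset.filter (fun S => ((∏ q ∈ S, q : ℕ) : ℝ) ≤ D)).card ≤ (Icc 1 ⌊D⌋₊).card := by
    refine card_le_card_of_injOn (fun S => ∏ q ∈ S, q) ?_ ?_
    · intro S hS
      obtain ⟨h1, h2⟩ := mem_filter.1 hS
      rw [mem_powerset] at h1
      simp only [coe_Icc, Set.mem_Icc]
      refine ⟨Nat.one_le_iff_ne_zero.2 ?_, Nat.le_floor h2⟩
      exact prod_ne_zero_iff.2 fun p hp => (hP p (h1 hp)).ne_zero
    · intro S hS S' hS' h
      have h1 := mem_powerset.1 (mem_filter.1 hS).1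
      have h1' := mem_powerset.1 (mem_filter.1 hS').1
      have e1 := Nat.primeFactors_prod (s := S) fun p hp => hP p (h1 hp)
      have e2 := Nat.primeFactors_prod (s := S') fun p hp => hP p (h1' hp)
      rw [← e1, ← e2]
      simp only at h
      rw [h]
  rw [Nat.card_Icc] at h1
  have h2 : ((P.powerset.filter (fun S => ((∏ q ∈ S, q : ℕ) : ℝ) ≤ D)).card : ℝ) ≤ (⌊D⌋₊ : ℝ) := by
    exact_mod_cast h1
  exact h2.trans (Nat.floor_le hD)

lemma prod_ge_inv (y : ℝ) (hy : 1 ≤ y) (P : Finset ℕ) (hP : ∀ p ∈ P, p.Prime ∧ (p : ℝ) ≤ y) :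
    1 / y ≤ ∏ p ∈ P, (1 - 1 / (p : ℝ)) := by
  have htel : ∀ n : ℕ, 1 ≤ n → ∏ k ∈ Ioc 1 n, (1 - 1 / (k : ℝ)) = 1 / n := by
    intro n hn
    induction n, hn using Nat.le_induction with
    | base => simp
    | succ n hn ih =>
      rw [← Finset.insert_Ioc_right_eq_Ioc_add_one hn, prod_insert (by simp), ih]
      have hn0 : (0 : ℝ) < n := by exact_mod_cast hn
      push_cast
      field_simp
      ring
  have hn1 : 1 ≤ ⌊y⌋₊ := Nat.le_floor (by exact_mod_cast hy)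
  have hsub : P ⊆ Ioc 1 ⌊y⌋₊ := fun p hp => by
    rw [mem_Ioc]
    exact ⟨(hP p hp).1.one_lt, Nat.le_floor (hP p hp).2⟩
  have h1 : ∏ k ∈ Ioc 1 ⌊y⌋₊, (1 - 1 / (k : ℝ)) ≤ ∏ p ∈ P, (1 - 1 / (p : ℝ)) := by
    rw [← prod_sdiff hsub]
    refine mul_le_of_le_one_left ?_ ?_
    · refine prod_nonneg fun p hp => ?_
      have : (2 : ℝ) ≤ p := by exact_mod_cast (hP p hp).1.two_le
      have : 1 / (p : ℝ) ≤ 1 := by
        rw [div_le_one (by linarith)]; linarith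
      linarith
    · refine prod_le_one (fun k hk => ?_) fun k hk => ?_
      · have h2 := (mem_Ioc.1 (mem_sdiff.1 hk).1).1
        have : (1 : ℝ) < k := by exact_mod_cast h2
        have : 1 / (k : ℝ) ≤ 1 := by
          rw [div_le_one (by linarith)]; linarith
        linarith
      · have : (0 : ℝ) ≤ 1 / (k : ℝ) := by positivity
        linarith
  rw [htel _ hn1] at h1
  refine le_trans ?_ h1
  have hn0 : (0 : ℝ) < (⌊y⌋₊ : ℝ) := by exact_mod_cast hn1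
  exact one_div_le_one_div_of_le hn0 (Nat.floor_le (by linarith))

open Classical in
/-- **(FL2) Fundamental lemma for an interval with arbitrary residue classes.** -/
theorem interval_classes (η : ℝ) (hη : 0 < η) : ∃ s : ℕ, ∀ y : ℝ, 2 ≤ y →
    ∀ P : Finset ℕ, (∀ p ∈ P, p.Prime ∧ (p : ℝ) ≤ y) → ∀ (A : ℤ) (H : ℕ), y ^ s ≤ (H : ℝ) →
    ∀ a : ℕ → ℤ,
      |(((Ioc A (A + H)).filter (fun n => ∀ p ∈ P, ¬ n ≡ a p [ZMOD (p : ℤ)])).card : ℝ) -
        H * ∏ p ∈ P, (1 - 1 / (p : ℝ))| ≤ η * (H * ∏ p ∈ P, (1 - 1 / (p : ℝ))) := by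
  obtain ⟨s, hs⟩ := fundamental_lemma 1 zero_le_one (η / 2) (by positivity)
  obtain ⟨t, ht⟩ := pow_unbounded_of_one_lt (2 / η) (show (1 : ℝ) < 2 by norm_num)
  refine ⟨s + 1 + t, fun y hy P hP A H hH a => ?_⟩
  have hy1 : 1 ≤ y := by linarith
  have hg : ∀ p ∈ P, 0 ≤ 1 / (p : ℝ) ∧ 1 / (p : ℝ) ≤ 1 / 2 ∧ 1 / (p : ℝ) ≤ 1 / p := by
    intro p hp
    have : (2 : ℝ) ≤ p := by exact_mod_cast (hP p hp).1.two_le
    exact ⟨by positivity, one_div_le_one_div_of_le (by norm_num) this, le_rfl⟩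
  have h1 := hs y hy1 P hP (fun p => 1 / (p : ℝ)) hg (Ioc A (A + H)) (fun _ => 1)
    (fun n p => n ≡ a p [ZMOD (p : ℤ)]) H (fun _ => 1) (fun _ _ => zero_le_one) (Nat.cast_nonneg H) ?_
  · simp only [sum_const, nsmul_eq_mul, mul_one] at h1
    refine le_trans (le_of_eq (by congr!)) (h1.trans ?_)
    have h2 := card_powerset_prod_le P (fun p hp => (hP p hp).1) (y ^ s) (by positivity)
    have h3 := prod_ge_inv y hy1 P hP
    set V := ∏ p ∈ P, (1 - 1 / (p : ℝ))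
    have h4 : y ^ s ≤ η / 2 * (H * V) := by
      have h5 : y ^ (s + t) ≤ H * V := by
        calc y ^ (s + t) = y ^ (s + 1 + t) * (1 / y) := by
              rw [show s + 1 + t = s + t + 1 by ring, pow_succ]
              field_simp
          _ ≤ H * V := mul_le_mul hH h3 (by positivity) (by positivity)
      have h6 : (2 : ℝ) ^ t ≤ y ^ t := pow_le_pow_left₀ (by norm_num) hy t
      have h7 : 1 ≤ η / 2 * y ^ t := by
        have : 2 / η ≤ y ^ t := ht.le.trans h6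
        rw [div_le_iff₀ hη] at this
        linarith
      calc y ^ s = y ^ s * 1 := by ring
        _ ≤ y ^ s * (η / 2 * y ^ t) := mul_le_mul_of_nonneg_left h7 (by positivity)
        _ = η / 2 * y ^ (s + t) := by rw [pow_add]; ring
        _ ≤ η / 2 * (H * V) := mul_le_mul_of_nonneg_left h5 (by positivity)
    linarith
  · intro S hSP _
    simp only [sum_const, nsmul_eq_mul, mul_one]
    obtain ⟨c, hc⟩ := exists_crt S (fun p hp => (hP p (hSP hp)).1) a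
    have hpos : 0 < ∏ q ∈ S, q := Finset.prod_pos fun p hp => (hP p (hSP hp)).1.pos
    have h2 := card_modEq A H (∏ q ∈ S, q) hpos c
    have h5 : ∀ (inst : DecidablePred fun n : ℤ => ∀ p ∈ S, n ≡ a p [ZMOD (p : ℤ)]),
        (@Finset.filter ℤ _ inst (Ioc A (A + H))) =
          (Ioc A (A + H)).filter (fun n => n ≡ c [ZMOD ((∏ q ∈ S, q : ℕ) : ℤ)]) := by
      intro inst
      ext n
      simp only [mem_filter]
      rw [hc n]
    rw [h5]
    have h4 : (H : ℝ) * ∏ p ∈ S, 1 / (p : ℝ) = H / ((∏ q ∈ S, q : ℕ) : ℝ) := by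
      rw [Nat.cast_prod, prod_div_distrib, prod_const_one, mul_one_div]
    rw [h4]
    exact h2

end Crest.Agent.R001.FL
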