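import Crest.Agent.R001.FL.Bonf

/-!
# R1, block FL (helper154): Brun-Hooley weights, abstract part

`IsW Q D cu ct`: the coefficients `cu` (upper weight) and `ct` (the correction; `cu - ct` is the lower
weight) are supported on subsets of `Q` with product at most `D`, `|cu| + |ct| ≤ 1`, and
`∏ (1 - x) ≤ ev cu x`, `ev cu x - ev ct x ≤ ∏ (1 - x)`, `0 ≤ ev ct x` for all `x ∈ [0,1]^Q`.
-/

set_option autoImplicit false

open Finset

namespace Crest.Agent.R001.FL

/-- sieve weights of level `D` on the (finite) set `Q`. -/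
structure IsW (Q : Finset ℕ) (D : ℝ) (cu ct : Finset ℕ → ℝ) : Prop where
  abs_le : ∀ S, |cu S| + |ct S| ≤ 1
  lvl : ∀ S, S ⊆ Q → (cu S ≠ 0 ∨ ct S ≠ 0) → ((∏ q ∈ S, q : ℕ) : ℝ) ≤ D
  upper : ∀ x : ℕ → ℝ, (∀ q ∈ Q, 0 ≤ x q ∧ x q ≤ 1) → ∏ q ∈ Q, (1 - x q) ≤ ev Q cu x
  nonneg : ∀ x : ℕ → ℝ, (∀ q ∈ Q, 0 ≤ x q ∧ x q ≤ 1) → 0 ≤ ev Q ct x
  lower : ∀ x : ℕ → ℝ, (∀ q ∈ Q, 0 ≤ x q ∧ x q ≤ 1) →
    ev Q cu x - ev Q ct x ≤ ∏ q ∈ Q, (1 - x q)

/-- the block weights. -/
lemma isW_block (Q : Finset ℕ) (Y : ℝ) (hY : 1 ≤ Y) (hQ : ∀ q ∈ Q, (q : ℝ) ≤ Y) (b : ℕ)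
    (hb : Even b) :
    IsW Q (Y ^ (b + 1)) (fun S => if S.card ≤ b then (-1) ^ S.card else 0)
      (fun S => if S.card = b + 1 then 1 else 0) := by
  refine ⟨fun S => ?_, fun S hS hc => ?_, fun x hx => ?_, fun x hx => ?_, fun x hx => ?_⟩
  · by_cases h : S.card ≤ b
    · have h2 : S.card ≠ b + 1 := by omega
      simp only [h, h2, if_true, if_false]
      rcases neg_one_pow_eq_or ℝ S.card with h3 | h3 <;> rw [h3] <;> norm_num
    · simp only [h, if_false]
      split_ifs <;> norm_num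
  · have hcard : S.card ≤ b + 1 := by
      by_contra hcon
      have h1 : ¬ S.card ≤ b := by omega
      have h2 : S.card ≠ b + 1 := by omega
      simp [h1, h2] at hc
    push_cast
    calc ∏ q ∈ S, (q : ℝ) ≤ ∏ q ∈ S, Y :=
          prod_le_prod (fun q _ => by positivity) fun q hq => hQ q (hS hq)
      _ = Y ^ S.card := by rw [prod_const]
      _ ≤ Y ^ (b + 1) := pow_le_pow_right₀ hY hcard
  · rw [← BB_eq_ev]
    have := (bonf x Q hx b).1
    rw [hb.neg_one_pow, one_mul] at this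
    linarith
  · rw [← es_eq_ev]
    exact es_nonneg x Q (fun q hq => (hx q hq).1) _
  · rw [← BB_eq_ev, ← es_eq_ev]
    have := (bonf x Q hx b).2
    rw [hb.neg_one_pow, one_mul] at this
    linarith

lemma ev_union {Q Q' : Finset ℕ} (hd : Disjoint Q Q') (c c' : Finset ℕ → ℝ) (x : ℕ → ℝ) :
    ev (Q ∪ Q') (fun S => c (S ∩ Q) * c' (S ∩ Q')) x = ev Q c x * ev Q' c' x := by
  classical
  unfold ev
  rw [sum_mul_sum, ← sum_product']
  refine (sum_bij' (fun p _ => p.1 ∪ p.2) (fun S _ => (S ∩ Q, S ∩ Q')) ?_ ?_ ?_ ?_ ?_).symm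
  · rintro ⟨A, B⟩ h
    simp only [mem_product, mem_powerset] at h ⊢
    exact union_subset_union h.1 h.2
  · intro S _
    simp only [mem_product, mem_powerset]
    exact ⟨inter_subset_right, inter_subset_right⟩
  · rintro ⟨A, B⟩ h
    simp only [mem_product, mem_powerset] at h
    have h1 : Disjoint A Q' := disjoint_of_subset_left h.1 hd
    have h2 : Disjoint B Q := disjoint_of_subset_left h.2 hd.symm
    ext1
    · simp only [union_inter_distrib_right]
      rw [inter_eq_left.2 h.1, disjoint_iff_inter_eq_empty.1 h2, union_empty]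
    · simp only [union_inter_distrib_right]
      rw [inter_eq_left.2 h.2, disjoint_iff_inter_eq_empty.1 h1, empty_union]
  · intro S hS
    simp only [mem_powerset] at hS
    rw [← inter_union_distrib_left, inter_eq_left.2 hS]
  · rintro ⟨A, B⟩ h
    simp only [mem_product, mem_powerset] at h
    have h1 : Disjoint A Q' := disjoint_of_subset_left h.1 hd
    have h2 : Disjoint B Q := disjoint_of_subset_left h.2 hd.symm
    have h3 : (A ∪ B) ∩ Q = A := by
      rw [union_inter_distrib_right, inter_eq_left.2 h.1, disjoint_iff_inter_eq_empty.1 h2,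
        union_empty]
    have h4 : (A ∪ B) ∩ Q' = B := by
      rw [union_inter_distrib_right, inter_eq_left.2 h.2, disjoint_iff_inter_eq_empty.1 h1,
        empty_union]
    have h5 : Disjoint A B := disjoint_of_subset_left h.1 (disjoint_of_subset_right h.2 hd)
    simp only [h3, h4, prod_union h5]
    ring

lemma ev_add (Q : Finset ℕ) (c c' : Finset ℕ → ℝ) (x : ℕ → ℝ) :
    ev Q (fun S => c S + c' S) x = ev Q c x + ev Q c' x := by
  unfold ev
  rw [← sum_add_distrib]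
  refine sum_congr rfl fun S _ => by ring

/-- product of sieve weights on disjoint sets. -/
lemma IsW.mul {Q Q' : Finset ℕ} {D D' : ℝ} {cu ct cu' ct' : Finset ℕ → ℝ} (hd : Disjoint Q Q')
    (h : IsW Q D cu ct) (h' : IsW Q' D' cu' ct') :
    IsW (Q ∪ Q') (D * D') (fun S => cu (S ∩ Q) * cu' (S ∩ Q'))
      (fun S => ct (S ∩ Q) * cu' (S ∩ Q') + cu (S ∩ Q) * ct' (S ∩ Q')) := by
  classical
  have hprod : ∀ x : ℕ → ℝ, ∏ q ∈ Q ∪ Q', (1 - x q) = (∏ q ∈ Q, (1 - x q)) * ∏ q ∈ Q', (1 - x q) :=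
    fun x => prod_union hd
  refine ⟨fun S => ?_, fun S hS hc => ?_, fun x hx => ?_, fun x hx => ?_, fun x hx => ?_⟩
  · have h1 := h.abs_le (S ∩ Q)
    have h2 := h'.abs_le (S ∩ Q')
    set u := cu (S ∩ Q)
    set t := ct (S ∩ Q)
    set u' := cu' (S ∩ Q')
    set t' := ct' (S ∩ Q')
    have h3 : |t * u' + u * t'| ≤ |t| * |u'| + |u| * |t'| := by
      refine (abs_add_le _ _).trans ?_
      rw [abs_mul, abs_mul]
    rw [abs_mul]
    have hu := abs_nonneg u
    have ht := abs_nonneg t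
    have hu' := abs_nonneg u'
    have ht' := abs_nonneg t'
    have h4 : |u| * |u'| + |t| * |u'| ≤ |u'| := by nlinarith
    have h5 : |u| * |t'| ≤ |t'| := by nlinarith
    linarith
  · have h1 : cu (S ∩ Q) ≠ 0 ∨ ct (S ∩ Q) ≠ 0 := by
      by_contra hcon
      push Not at hcon
      simp [hcon.1, hcon.2] at hc
    have h2 : cu' (S ∩ Q') ≠ 0 ∨ ct' (S ∩ Q') ≠ 0 := by
      by_contra hcon
      push Not at hcon
      simp [hcon.1, hcon.2] at hc
    have h3 := h.lvl (S ∩ Q) inter_subset_right h1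
    have h4 := h'.lvl (S ∩ Q') inter_subset_right h2
    have h5 : S = (S ∩ Q) ∪ (S ∩ Q') := by
      rw [← inter_union_distrib_left, inter_eq_left.2 hS]
    have h6 : Disjoint (S ∩ Q) (S ∩ Q') :=
      disjoint_of_subset_left inter_subset_right (disjoint_of_subset_right inter_subset_right hd)
    have h7 : (∏ q ∈ S, q : ℕ) = (∏ q ∈ S ∩ Q, q) * ∏ q ∈ S ∩ Q', q := by
      conv_lhs => rw [h5]
      exact prod_union h6
    rw [h7, Nat.cast_mul]
    exact mul_le_mul h3 h4 (by positivity) (le_trans (by positivity) h3)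
  · have hx1 : ∀ q ∈ Q, 0 ≤ x q ∧ x q ≤ 1 := fun q hq => hx q (mem_union_left _ hq)
    have hx2 : ∀ q ∈ Q', 0 ≤ x q ∧ x q ≤ 1 := fun q hq => hx q (mem_union_right _ hq)
    rw [ev_union hd, hprod]
    exact mul_le_mul (h.upper x hx1) (h'.upper x hx2) (prod_le_one' x Q' hx2).1
      ((prod_le_one' x Q hx1).1.trans (h.upper x hx1))
  · have hx1 : ∀ q ∈ Q, 0 ≤ x q ∧ x q ≤ 1 := fun q hq => hx q (mem_union_left _ hq)
    have hx2 : ∀ q ∈ Q', 0 ≤ x q ∧ x q ≤ 1 := fun q hq => hx q (mem_union_right _ hq)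
    rw [ev_add, ev_union hd, ev_union hd]
    have h1 := h.nonneg x hx1
    have h2 := h'.nonneg x hx2
    have h3 := (prod_le_one' x Q hx1).1.trans (h.upper x hx1)
    have h4 := (prod_le_one' x Q' hx2).1.trans (h'.upper x hx2)
    positivity
  · have hx1 : ∀ q ∈ Q, 0 ≤ x q ∧ x q ≤ 1 := fun q hq => hx q (mem_union_left _ hq)
    have hx2 : ∀ q ∈ Q', 0 ≤ x q ∧ x q ≤ 1 := fun q hq => hx q (mem_union_right _ hq)
    rw [ev_add, ev_union hd, ev_union hd, ev_union hd, hprod]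
    have h1 := h.nonneg x hx1
    have h2 := h'.nonneg x hx2
    have h5 := (prod_le_one' x Q hx1).1
    have h6 := (prod_le_one' x Q' hx2).1
    have h3 := h.upper x hx1
    have h4 := h'.upper x hx2
    have h7 := h.lower x hx1
    have h8 := h'.lower x hx2
    set u := ev Q cu x
    set t := ev Q ct x
    set u' := ev Q' cu' x
    set t' := ev Q' ct' x
    set i := ∏ q ∈ Q, (1 - x q)
    set i' := ∏ q ∈ Q', (1 - x q)
    have e1 : (u - i) * u' ≤ t * u' := mul_le_mul_of_nonneg_right (by linarith) (by linarith)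
    have e2 : i * (u' - i') ≤ i * t' := mul_le_mul_of_nonneg_left (by linarith) h5
    have e3 : i * t' ≤ u * t' := mul_le_mul_of_nonneg_right h3 h2
    nlinarith

lemma isW_empty : IsW ∅ 1 (fun S => if S = ∅ then 1 else 0) (fun _ => 0) := by
  refine ⟨fun S => ?_, fun S hS _ => ?_, fun x _ => ?_, fun x _ => ?_, fun x _ => ?_⟩
  · by_cases h : S = ∅ <;> simp [h]
  · rw [subset_empty.1 hS]; simp
  · simp [ev]
  · simp [ev]
  · simp [ev]

lemma IsW.mono {Q : Finset ℕ} {D D' : ℝ} {cu ct : Finset ℕ → ℝ} (h : IsW Q D cu ct) (hD : D ≤ D') :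
    IsW Q D' cu ct :=
  ⟨h.abs_le, fun S hS hc => (h.lvl S hS hc).trans hD, h.upper, h.nonneg, h.lower⟩

end Crest.Agent.R001.FL
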